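import Vale.Agent.P209.Toric

/-!
# The `2ⁿ` unimodular cells of the doubled simplex
-/

open Matrix

namespace Vale.Agent.P209

variable {n : ℕ}

/-- Cumulative sums. -/
def cumMat (R : Type*) [CommRing R] (n : ℕ) : Matrix (Fin n) (Fin n) R :=
  fun i j => if (j : ℕ) ≤ i then 1 else 0

/-- Successive differences. -/
def diffMat (R : Type*) [CommRing R] (n : ℕ) : Matrix (Fin n) (Fin n) R :=
  fun i j => (if j = i then 1 else 0) - if (j : ℕ) + 1 = i then 1 else 0

/-- The matrix of a permutation. -/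
def permMat (R : Type*) [CommRing R] (σ : Equiv.Perm (Fin n)) : Matrix (Fin n) (Fin n) R :=
  fun i j => if σ i = j then 1 else 0

lemma diff_mul_cum (R : Type*) [CommRing R] : diffMat R n * cumMat R n = 1 := by
  ext i k
  simp only [Matrix.mul_apply, diffMat, sub_mul, Finset.sum_sub_distrib, ite_mul, one_mul, zero_mul,
    Finset.sum_ite_eq', Finset.mem_univ, if_true]
  by_cases h0 : (i : ℕ) = 0
  · rw [Finset.sum_eq_zero fun j _ => if_neg (by omega), sub_zero]
    simp only [cumMat, Matrix.one_apply, Fin.ext_iff]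
    rw [h0]
    simp [eq_comm]
  · rw [Finset.sum_eq_single ⟨(i : ℕ) - 1, by omega⟩]
    · simp only [cumMat, Matrix.one_apply, Fin.ext_iff]
      split_ifs <;> simp <;> omega
    · intro j _ hj
      rw [if_neg]
      intro h
      exact hj (Fin.ext (by simp only; omega))
    · simp

lemma cum_mul_diff (R : Type*) [CommRing R] : cumMat R n * diffMat R n = 1 :=
  mul_eq_one_comm.1 (diff_mul_cum R)

lemma permMat_transpose_mul (R : Type*) [CommRing R] (σ : Equiv.Perm (Fin n)) :
    (permMat R σ)ᵀ * permMat R σ = 1 := by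
  ext a c
  rw [Matrix.mul_apply, ← Equiv.sum_comp σ.symm]
  simp [permMat, Matrix.one_apply, eq_comm]

lemma permMat_mulVec (σ : Equiv.Perm (Fin n)) (v : Fin n → ℝ) :
    permMat ℝ σ *ᵥ v = fun i => v (σ i) := by
  funext i
  simp [Matrix.mulVec, dotProduct, permMat]

/-- The cell matrix. -/
def cellA (σ : Equiv.Perm (Fin n)) : Matrix (Fin n) (Fin n) ℤ :=
  diffMat ℤ n * permMat ℤ σ * cumMat ℤ n

/-- The inverse of the cell matrix. -/
def cellB (σ : Equiv.Perm (Fin n)) : Matrix (Fin n) (Fin n) ℤ :=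
  diffMat ℤ n * (permMat ℤ σ)ᵀ * cumMat ℤ n

lemma cellB_mul_cellA (σ : Equiv.Perm (Fin n)) (k l : Fin n) :
    ∑ i, cellB σ k i * cellA σ i l = if k = l then 1 else 0 := by
  have h : cellB σ * cellA σ = 1 := by
    calc cellB σ * cellA σ = diffMat ℤ n * (permMat ℤ σ)ᵀ * (cumMat ℤ n * diffMat ℤ n) *
          permMat ℤ σ * cumMat ℤ n := by simp only [cellA, cellB, Matrix.mul_assoc]
      _ = diffMat ℤ n * ((permMat ℤ σ)ᵀ * permMat ℤ σ) * cumMat ℤ n := by
          rw [cum_mul_diff, Matrix.mul_one]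
          simp only [Matrix.mul_assoc]
      _ = 1 := by rw [permMat_transpose_mul, Matrix.mul_one, diff_mul_cum]
  rw [← Matrix.mul_apply, h, Matrix.one_apply]

/-- The constant part of a cell map. -/
noncomputable def cellC (b : ℝ) (W : Fin n → Bool) : Fin n → ℝ :=
  diffMat ℝ n *ᵥ fun i => if W (Tuple.sort W i) then b else 0

/-- The cumulative image actions in a cell. -/
noncomputable def cellS (b : ℝ) (W : Fin n → Bool) (ν : Fin n → ℝ) (i : Fin n) : ℝ :=
  (cumMat ℝ n *ᵥ ν) (Tuple.sort W i) + if W (Tuple.sort W i) then b else 0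

lemma newAct_cell (b : ℝ) (W : Fin n → Bool) (z : Fin n → ℂ) :
    newAct (cellA (Tuple.sort W)) (cellC b W) z = diffMat ℝ n *ᵥ cellS b W (act z) := by
  funext i
  have hA : (cellA (Tuple.sort W)).map (fun x : ℤ => (x : ℝ)) =
      diffMat ℝ n * permMat ℝ (Tuple.sort W) * cumMat ℝ n := by
    have e1 : ((diffMat ℤ n).map (Int.castRingHom ℝ)) = diffMat ℝ n := by
      ext a c
      simp [diffMat]
    have e2 : ((permMat ℤ (Tuple.sort W)).map (Int.castRingHom ℝ)) =
        permMat ℝ (Tuple.sort W) := by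
      ext a c
      simp [permMat]
    have e3 : ((cumMat ℤ n).map (Int.castRingHom ℝ)) = cumMat ℝ n := by
      ext a c
      simp [cumMat]
    show (cellA (Tuple.sort W)).map (Int.castRingHom ℝ) = _
    rw [cellA, Matrix.map_mul, Matrix.map_mul, e1, e2, e3]
  have h1 : newAct (cellA (Tuple.sort W)) (cellC b W) z i =
      ((cellA (Tuple.sort W)).map (fun x : ℤ => (x : ℝ)) *ᵥ act z) i + cellC b W i := by
    simp [newAct, Matrix.mulVec, dotProduct]
  rw [h1, hA, ← Matrix.mulVec_mulVec, ← Matrix.mulVec_mulVec, permMat_mulVec, cellC,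
    ← Pi.add_apply, ← Matrix.mulVec_add]
  rfl

lemma cum_newAct_cell (b : ℝ) (W : Fin n → Bool) (z : Fin n → ℂ) :
    cumMat ℝ n *ᵥ newAct (cellA (Tuple.sort W)) (cellC b W) z = cellS b W (act z) := by
  rw [newAct_cell, Matrix.mulVec_mulVec, cum_mul_diff, Matrix.one_mulVec]

lemma cum_apply (v : Fin n → ℝ) (i : Fin n) :
    (cumMat ℝ n *ᵥ v) i = ∑ j ∈ Finset.univ.filter (fun j : Fin n => (j : ℕ) ≤ i), v j := by
  simp [Matrix.mulVec, dotProduct, cumMat, Finset.sum_filter]

variable {ν : Fin n → ℝ}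

lemma cum_pos (hν : ∀ l, 0 < ν l) (l : Fin n) : 0 < (cumMat ℝ n *ᵥ ν) l := by
  rw [cum_apply]
  exact Finset.sum_pos (fun j _ => hν j) ⟨l, by simp⟩

lemma cum_lt (hν : ∀ l, 0 < ν l) {b : ℝ} (hb : ∑ l, ν l < b) (l : Fin n) :
    (cumMat ℝ n *ᵥ ν) l < b := by
  rw [cum_apply]
  exact (Finset.sum_le_univ_sum_of_nonneg fun j => (hν j).le).trans_lt hb

lemma cum_strictMono (hν : ∀ l, 0 < ν l) : StrictMono (cumMat ℝ n *ᵥ ν) := by
  intro i j hij
  rw [cum_apply, cum_apply]
  have hlt : (i : ℕ) < j := hij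
  refine Finset.sum_lt_sum_of_subset (fun x hx => ?_) (i := j) (by simp) (by simp; omega) (hν j)
    fun x _ _ => (hν x).le
  simp only [Finset.mem_filter, Finset.mem_univ, true_and] at hx ⊢
  omega

lemma cellS_strictMono (hν : ∀ l, 0 < ν l) {b : ℝ} (hb : ∑ l, ν l < b) (W : Fin n → Bool) :
    StrictMono (cellS b W ν) := by
  intro i j hij
  have hm : W (Tuple.sort W i) ≤ W (Tuple.sort W j) := Tuple.monotone_sort W hij.le
  have hst := (Tuple.eq_sort_iff.1 (rfl : Tuple.sort W = Tuple.sort W)).2 i j hij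
  have h1 := cum_lt hν hb (Tuple.sort W i)
  have h2 := cum_pos hν (Tuple.sort W j)
  simp only [cellS]
  rcases hi : W (Tuple.sort W i) <;> rcases hj : W (Tuple.sort W j)
  · simpa [hi, hj] using cum_strictMono hν (hst (by simp [hi, hj]))
  · simp
    linarith
  · rw [hi, hj] at hm
    exact absurd hm (by decide)
  · simpa [hi, hj] using cum_strictMono hν (hst (by simp [hi, hj]))

lemma cell_pos {b : ℝ} (W : Fin n → Bool) {z : Fin n → ℂ} (hz : ∀ l, z l ≠ 0)
    (hb : ∑ l, act z l < b) (i : Fin n) :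
    0 < newAct (cellA (Tuple.sort W)) (cellC b W) z i := by
  have hν : ∀ l, 0 < act z l := fun l => mul_pos Real.pi_pos (Complex.normSq_pos.2 (hz l))
  have hb0 : 0 < b := lt_of_le_of_lt (Finset.sum_nonneg fun l _ => (hν l).le) hb
  have hs0 : ∀ j, 0 < cellS b W (act z) j := fun j => by
    have := cum_pos hν (Tuple.sort W j)
    simp only [cellS]
    split_ifs <;> linarith
  rw [newAct_cell]
  simp only [Matrix.mulVec, dotProduct, diffMat, sub_mul, Finset.sum_sub_distrib, ite_mul, one_mul,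
    zero_mul, Finset.sum_ite_eq', Finset.mem_univ, if_true]
  by_cases h0 : (i : ℕ) = 0
  · rw [Finset.sum_eq_zero fun j _ => if_neg (by omega), sub_zero]
    exact hs0 i
  · rw [Finset.sum_eq_single ⟨(i : ℕ) - 1, by omega⟩]
    · rw [if_pos (by simp only; omega), sub_pos]
      exact cellS_strictMono hν hb W (show (⟨(i : ℕ) - 1, _⟩ : Fin n) < i by
        simp [Fin.lt_def]; omega)
    · intro j _ hj
      rw [if_neg]
      intro h
      exact hj (Fin.ext (by simp only; omega))
    · simp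

lemma cell_sum_lt {b : ℝ} (W : Fin n → Bool) {z : Fin n → ℂ} (hz : ∀ l, z l ≠ 0)
    (hb : ∑ l, act z l < b) :
    ∑ i, newAct (cellA (Tuple.sort W)) (cellC b W) z i < 2 * b := by
  have hν : ∀ l, 0 < act z l := fun l => mul_pos Real.pi_pos (Complex.normSq_pos.2 (hz l))
  have hb0 : 0 < b := lt_of_le_of_lt (Finset.sum_nonneg fun l _ => (hν l).le) hb
  rcases Nat.eq_zero_or_pos n with h | h
  · subst h
    simp [hb0]
  · have he : ∑ i, newAct (cellA (Tuple.sort W)) (cellC b W) z i =
        cellS b W (act z) ⟨n - 1, by omega⟩ := by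
      rw [← cum_newAct_cell, cum_apply, Finset.filter_true_of_mem fun j _ => by simp only; omega]
    rw [he, cellS]
    have := cum_lt hν hb (Tuple.sort W ⟨n - 1, by omega⟩)
    split_ifs <;> linarith

lemma cell_head_lt {b : ℝ} {W : Fin n → Bool} {l₀ : Fin n} (hW : W l₀ = false) (h : 0 < n)
    {z : Fin n → ℂ} (hz : ∀ l, z l ≠ 0) (hb : ∑ l, act z l < b) :
    newAct (cellA (Tuple.sort W)) (cellC b W) z ⟨0, h⟩ < b := by
  have hν : ∀ l, 0 < act z l := fun l => mul_pos Real.pi_pos (Complex.normSq_pos.2 (hz l))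
  have hfst : W (Tuple.sort W ⟨0, h⟩) = false := by
    have := Tuple.monotone_sort W (show (⟨0, h⟩ : Fin n) ≤ (Tuple.sort W).symm l₀ by
      simp [Fin.le_def])
    simp only [Function.comp_apply, Equiv.apply_symm_apply, hW] at this
    exact Bool.eq_false_of_le_false this
  have he : newAct (cellA (Tuple.sort W)) (cellC b W) z ⟨0, h⟩ =
      cellS b W (act z) ⟨0, h⟩ := by
    rw [← cum_newAct_cell, cum_apply, Finset.sum_eq_single (⟨0, h⟩ : Fin n)]
    · intro j hj hne
      simp only [Finset.mem_filter] at hj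
      exact absurd (Fin.ext (by simp only; omega)) hne
    · simp
  rw [he, cellS, hfst]
  simpa using cum_lt hν hb _

/-- Different cells are disjoint. -/
lemma cell_separated {b : ℝ} {W W' : Fin n → Bool} {z z' : Fin n → ℂ} (hz : ∀ l, z l ≠ 0)
    (hz' : ∀ l, z' l ≠ 0) (hb : ∑ l, act z l < b) (hb' : ∑ l, act z' l < b)
    (h : newAct (cellA (Tuple.sort W)) (cellC b W) z =
      newAct (cellA (Tuple.sort W')) (cellC b W') z') : W = W' := by
  have hν : ∀ l, 0 < act z l := fun l => mul_pos Real.pi_pos (Complex.normSq_pos.2 (hz l))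
  have hν' : ∀ l, 0 < act z' l := fun l => mul_pos Real.pi_pos (Complex.normSq_pos.2 (hz' l))
  have hs : cellS b W (act z) = cellS b W' (act z') := by
    rw [← cum_newAct_cell, ← cum_newAct_cell, h]
  set t := cumMat ℝ n *ᵥ act z with ht
  set t' := cumMat ℝ n *ᵥ act z' with ht'
  have hcase : ∀ i, W (Tuple.sort W i) = W' (Tuple.sort W' i) ∧
      t (Tuple.sort W i) = t' (Tuple.sort W' i) := by
    intro i
    have h1 := cum_pos hν (Tuple.sort W i)
    have h2 := cum_lt hν hb (Tuple.sort W i)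
    have h3 := cum_pos hν' (Tuple.sort W' i)
    have h4 := cum_lt hν' hb' (Tuple.sort W' i)
    have h5 := congr_fun hs i
    simp only [cellS, ← ht, ← ht'] at h1 h2 h3 h4 h5
    rcases hi : W (Tuple.sort W i) <;> rcases hj : W' (Tuple.sort W' i) <;>
      simp [hi, hj] at h5 ⊢ <;> linarith
  have hr : t = t' := by
    refine ((cum_strictMono hν).range_inj (cum_strictMono hν')).1 ?_
    rw [← (Tuple.sort W).surjective.range_comp t, ← (Tuple.sort W').surjective.range_comp t']
    exact congr_arg Set.range (funext fun i => (hcase i).2)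
  funext l
  obtain ⟨i, rfl⟩ := (Tuple.sort W).surjective l
  have : Tuple.sort W i = Tuple.sort W' i :=
    (cum_strictMono hν).injective ((hcase i).2.trans (congr_fun hr.symm _))
  exact (hcase i).1.trans (congr_arg W' this.symm)

end Vale.Agent.P209
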