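import Mathlib

/-!
# Symplectic ball packings: definitions
-/

open scoped ContDiff

namespace Vale.Agent.P209

/-- The standard symplectic form `∑ dx_j ∧ dy_j` on `ℂⁿ`. -/
noncomputable def omega {n : ℕ} (a b : Fin n → ℂ) : ℝ :=
  ∑ j, ((a j).re * (b j).im - (a j).im * (b j).re)

/-- The closed ball of capacity `R`. -/
def ball (n : ℕ) (R : ℝ) : Set (Fin n → ℂ) := {z | Real.pi * ∑ j, ‖z j‖ ^ 2 ≤ R}

/-- A map that is a symplectic embedding on a neighbourhood of the closed ball of capacity `R`. -/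
def IsSympEmbedding {n : ℕ} (R : ℝ) (f : (Fin n → ℂ) → Fin n → ℂ) : Prop :=
  ∃ U : Set (Fin n → ℂ), IsOpen U ∧ ball n R ⊆ U ∧ ContDiffOn ℝ ∞ f U ∧ Set.InjOn f U ∧
    ∀ z ∈ U, ∀ a b, omega (fderiv ℝ f z a) (fderiv ℝ f z b) = omega a b

/-- The balls of capacities `r i` embed symplectically and disjointly into the open ball of
capacity `R`. -/
def Packs (n : ℕ) {k : ℕ} (r : Fin k → ℝ) (R : ℝ) : Prop :=
  ∃ f : Fin k → (Fin n → ℂ) → Fin n → ℂ,
    (∀ i, IsSympEmbedding (r i) (f i) ∧ f i '' ball n (r i) ⊆ interior (ball n R)) ∧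
      Pairwise fun i j => Disjoint (f i '' ball n (r i)) (f j '' ball n (r j))

end Vale.Agent.P209
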