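import Vale.Agent.P209.Defs

/-!
# An area preserving map moving the disc off the origin
-/

open Complex
open scoped ContDiff ComplexConjugate

namespace Vale.Agent.P209

/-- The area form of the plane. -/
def area (a b : ℂ) : ℝ := a.re * b.im - a.im * b.re

/-- A radial twist about `c`. -/
noncomputable def twist (c : ℂ) (g : ℝ → ℝ) (z : ℂ) : ℂ :=
  c + exp (I * (g (normSq (z - c)) : ℝ)) * (z - c)

lemma norm_twist_sub (c : ℂ) (g : ℝ → ℝ) (z : ℂ) : ‖twist c g z - c‖ = ‖z - c‖ := by
  simp [twist, Complex.norm_exp]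

lemma twist_injective (c : ℂ) (g : ℝ → ℝ) : Function.Injective (twist c g) := by
  intro z z' h
  have hn : normSq (z - c) = normSq (z' - c) := by
    rw [normSq_eq_norm_sq, normSq_eq_norm_sq, ← norm_twist_sub c g z, h, norm_twist_sub]
  have h' : exp (I * (g (normSq (z - c)) : ℝ)) * (z - c) =
      exp (I * (g (normSq (z - c)) : ℝ)) * (z' - c) := by
    have := h
    simp only [twist, add_right_inj, ← hn] at this
    exact this
  exact sub_left_injective (mul_left_cancel₀ (exp_ne_zero _) h')

lemma contDiff_twist (c : ℂ) {g : ℝ → ℝ} (hg : ContDiff ℝ ∞ g) : ContDiff ℝ ∞ (twist c g) := by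
  have hN : ContDiff ℝ ∞ fun z : ℂ => g (normSq (z - c)) := by
    have : ContDiff ℝ ∞ fun z : ℂ => normSq (z - c) := by
      simp only [normSq_eq_norm_sq]
      exact (contDiff_id.sub contDiff_const).norm_sq ℝ
    exact hg.comp this
  exact contDiff_const.add (((contDiff_const.mul (ofRealCLM.contDiff.comp hN)).cexp).mul
    (contDiff_id.sub contDiff_const))

lemma area_fderiv_twist (c : ℂ) {g : ℝ → ℝ} (hg : ContDiff ℝ ∞ g) (z a b : ℂ) :
    area (fderiv ℝ (twist c g) z a) (fderiv ℝ (twist c g) z b) = area a b := by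
  set w := z - c with hw
  set q := deriv g (normSq w) with hq
  have hd : ∀ v : ℂ, fderiv ℝ (twist c g) z v = exp (I * (g (normSq w) : ℝ)) *
      (v + I * ((q * (2 * (w.re * v.re + w.im * v.im)) : ℝ) : ℂ) * w) := by
    intro v
    have h0 : HasFDerivAt (fun z : ℂ => z - c) (ContinuousLinearMap.id ℝ ℂ) z :=
      (hasFDerivAt_id z).sub_const c
    have hre := (reCLM.hasFDerivAt (x := w)).comp z h0
    have him := (imCLM.hasFDerivAt (x := w)).comp z h0
    have hN := (hre.mul hre).add (him.mul him)
    have hg' : HasDerivAt g q (normSq w) :=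
      (hg.differentiable (by simp) (normSq w)).hasDerivAt
    have hG : HasFDerivAt (fun z : ℂ => g (normSq (z - c))) _ z :=
      hg'.comp_hasFDerivAt z (hN : HasFDerivAt (fun z : ℂ => normSq (z - c)) _ z)
    have hE := (((ofRealCLM.hasFDerivAt.comp z hG).const_mul I).cexp.mul h0).const_add c
    have hT : HasFDerivAt (twist c g) _ z :=
      hE.congr_of_eventuallyEq (Filter.Eventually.of_forall fun x => rfl)
    rw [hT.fderiv]
    simp [← hw]
    ring
  rw [hd, hd]
  have he : normSq (exp (I * (g (normSq w) : ℝ))) = 1 := by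
    rw [normSq_eq_norm_sq, Complex.norm_exp]
    simp
  rw [normSq_apply] at he
  have key : ∀ e x y : ℂ, area (e * x) (e * y) = (e.re * e.re + e.im * e.im) * area x y := by
    intro e x y
    simp [area]
    ring
  rw [key, he, one_mul]
  simp [area]
  ring

/-- The angle profile of one step. -/
noncomputable def profile (δ t : ℝ) : ℝ :=
  Real.pi * Real.smoothTransition ((4 * δ ^ 2 - t) / (3 * δ ^ 2))

lemma contDiff_profile (δ : ℝ) : ContDiff ℝ ∞ (profile δ) :=
  contDiff_const.mul (Real.smoothTransition.contDiff.comp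
    ((contDiff_const.sub contDiff_id).div_const _))

/-- Centre of step `m`. -/
noncomputable def center (δ : ℝ) (m : ℕ) : ℂ := (((2 * m + 1) * δ : ℝ) : ℂ)

/-- The composition of the steps `m-1, …, 0`, the outer step first. -/
noncomputable def finger (δ : ℝ) : ℕ → ℂ → ℂ
  | 0 => id
  | m + 1 => finger δ m ∘ twist (center δ m) (profile δ)

lemma contDiff_finger (δ : ℝ) : ∀ m, ContDiff ℝ ∞ (finger δ m)
  | 0 => contDiff_id
  | m + 1 => (contDiff_finger δ m).comp (contDiff_twist _ (contDiff_profile δ))

lemma finger_injective (δ : ℝ) : ∀ m, Function.Injective (finger δ m)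
  | 0 => Function.injective_id
  | m + 1 => (finger_injective δ m).comp (twist_injective _ _)

lemma area_fderiv_finger (δ : ℝ) : ∀ (m : ℕ) (z a b : ℂ),
    area (fderiv ℝ (finger δ m) z a) (fderiv ℝ (finger δ m) z b) = area a b
  | 0, z, a, b => by simp [finger]
  | m + 1, z, a, b => by
    rw [finger, fderiv_comp z ((contDiff_finger δ m).differentiable (by simp) _)
      ((contDiff_twist _ (contDiff_profile δ)).differentiable (by simp) _)]
    simp only [ContinuousLinearMap.comp_apply]
    rw [area_fderiv_finger δ m, area_fderiv_twist _ (contDiff_profile δ)]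

lemma finger_pole {δ : ℝ} (hδ : 0 < δ) : ∀ m : ℕ, finger δ m ((2 * m * δ : ℝ) : ℂ) = 0
  | 0 => by simp [finger]
  | m + 1 => by
    have h1 : twist (center δ m) (profile δ) ((2 * ((m + 1 : ℕ) : ℝ) * δ : ℝ) : ℂ) =
        ((2 * m * δ : ℝ) : ℂ) := by
      have hs : ((2 * ((m + 1 : ℕ) : ℝ) * δ : ℝ) : ℂ) - center δ m = (δ : ℂ) := by
        simp [center]
        ring
      have hp : profile δ (δ * δ) = Real.pi := by
        rw [profile, Real.smoothTransition.one_of_one_le, mul_one]
        rw [le_div_iff₀ (by positivity)]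
        linarith [sq δ]
      rw [twist, hs, normSq_ofReal, hp, mul_comm I, exp_pi_mul_I]
      simp [center]
      ring
    simp only [finger, Function.comp_apply]
    rw [h1, finger_pole hδ m]

lemma twist_eq_or {δ : ℝ} (hδ : 0 < δ) (c z : ℂ) :
    twist c (profile δ) z = z ∨ (‖z - c‖ < 2 * δ ∧ ‖twist c (profile δ) z - c‖ < 2 * δ) := by
  by_cases h : ‖z - c‖ < 2 * δ
  · exact Or.inr ⟨h, by rwa [norm_twist_sub]⟩
  · left
    have h2 : (2 * δ) ^ 2 ≤ normSq (z - c) := by
      rw [normSq_eq_norm_sq]
      exact pow_le_pow_left₀ (by positivity) (not_lt.1 h) 2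
    rw [twist, profile, Real.smoothTransition.zero_of_nonpos]
    · simp
    · exact div_nonpos_of_nonpos_of_nonneg (by nlinarith) (by positivity)

lemma finger_bound {δ : ℝ} (hδ : 0 < δ) : ∀ (m : ℕ) (z : ℂ), finger δ m z = z ∨
    (‖finger δ m z‖ ≤ ‖z‖ + 4 * δ ∧ ‖finger δ m z‖ ≤ (2 * m + 1) * δ)
  | 0, z => Or.inl rfl
  | m + 1, z => by
    simp only [finger, Function.comp_apply]
    have hc : ‖center δ m‖ = (2 * m + 1) * δ := by
      rw [center, norm_real, Real.norm_of_nonneg (by positivity)]
    rcases twist_eq_or hδ (center δ m) z with h | ⟨h1, h2⟩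
    · rw [h]
      rcases finger_bound hδ m z with g | ⟨g1, g2⟩
      · exact Or.inl g
      · exact Or.inr ⟨g1, g2.trans (by push_cast; nlinarith)⟩
    · right
      set u := twist (center δ m) (profile δ) z
      have a1 := norm_sub_norm_le (center δ m) z
      have a2 := norm_sub_norm_le u (center δ m)
      rw [norm_sub_rev (center δ m) z] at a1
      rcases finger_bound hδ m u with g | ⟨g1, g2⟩
      · rw [g]
        constructor
        · linarith
        · push_cast
          linarith
      · constructor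
        · linarith
        · push_cast
          linarith

/-- The disc of radius `S` can be pushed off the origin, moving outwards by at most `ε`. -/
theorem exists_finger (S : ℝ) {ε : ℝ} (hε : 0 < ε) :
    ∃ h : ℂ → ℂ, ContDiff ℝ ∞ h ∧ Function.Injective h ∧
      (∀ z a b, area (fderiv ℝ h z a) (fderiv ℝ h z b) = area a b) ∧
      (∀ z, ‖z‖ ≤ S → h z ≠ 0) ∧ ∀ z, ‖h z‖ ≤ ‖z‖ + ε := by
  obtain ⟨m, hm⟩ := exists_nat_gt (S / (ε / 2))
  have hδ : 0 < ε / 4 := by positivity
  refine ⟨finger (ε / 4) m, contDiff_finger _ m, finger_injective _ m, area_fderiv_finger _ m,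
    fun z hz h0 => ?_, fun z => ?_⟩
  · have hzp := finger_injective (ε / 4) m (h0.trans (finger_pole hδ m).symm)
    rw [hzp, norm_real, Real.norm_of_nonneg (by positivity)] at hz
    rw [div_lt_iff₀ (by positivity)] at hm
    linarith
  · rcases finger_bound hδ m z with g | ⟨g, -⟩
    · rw [g]
      linarith
    · linarith

end Vale.Agent.P209
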