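import Vale.Agent.P209.Cells

/-!
# Packing up to `2ⁿ` balls
-/

open scoped ContDiff

namespace Vale.Agent.P209

variable {n : ℕ}

lemma omega_eq (a b : Fin n → ℂ) : omega a b = ∑ l, area (a l) (b l) := rfl

/-- A ball mapped by a toric map, after pushing it off the coordinate hyperplanes. -/
lemma exists_piece {A B : Fin n → Fin n → ℤ}
    (hBA : ∀ k l, ∑ i, B k i * A i l = if k = l then 1 else 0) (c : Fin n → ℝ) {r b : ℝ}
    (hr : 0 < r) (hrb : r < b)
    (hdom : ∀ w : Fin n → ℂ, (∀ l, w l ≠ 0) → ∑ l, act w l < b → ∀ i, 0 < newAct A c w i) :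
    ∃ f, IsSympEmbedding r f ∧ ∀ y ∈ f '' ball n r, ∃ w : Fin n → ℂ, (∀ l, w l ≠ 0) ∧
      ∑ l, act w l < b ∧ ∀ i, Real.pi * Complex.normSq (y i) = newAct A c w i := by
  obtain ⟨r', hr', hr'b⟩ := exists_between hrb
  set S := Real.sqrt (r' / Real.pi) with hS
  have hS0 : 0 ≤ S := Real.sqrt_nonneg _
  set D := (n : ℝ) * Real.pi * (2 * S + 1) with hD
  have hD0 : 0 ≤ D := by positivity
  obtain ⟨ε, hε, hε1, hεD⟩ : ∃ ε : ℝ, 0 < ε ∧ ε ≤ 1 ∧ D * ε < b - r' := by
    refine ⟨min 1 ((b - r') / (D + 1)), lt_min one_pos (div_pos (by linarith) (by linarith)),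
      min_le_left _ _, ?_⟩
    have h := min_le_right (1 : ℝ) ((b - r') / (D + 1))
    rw [le_div_iff₀ (by linarith)] at h
    nlinarith [lt_min one_pos (div_pos (show 0 < b - r' by linarith) (show 0 < D + 1 by linarith))]
  obtain ⟨h, hh, hinj, hsym, h0, hle⟩ := exists_finger S hε
  let H : (Fin n → ℂ) → Fin n → ℂ := fun z l => h (z l)
  let U : Set (Fin n → ℂ) := {z | Real.pi * ∑ l, ‖z l‖ ^ 2 < r'}
  have hU : IsOpen U := isOpen_lt (by fun_prop) continuous_const
  have hmem : ∀ z ∈ U, (∀ l, H z l ≠ 0) ∧ ∑ l, act (H z) l < b := by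
    intro z hz
    have hl : ∀ l, ‖z l‖ ≤ S := fun l => by
      refine Real.le_sqrt_of_sq_le ?_
      rw [le_div_iff₀ Real.pi_pos]
      have := Finset.single_le_sum (f := fun j => ‖z j‖ ^ 2) (fun j _ => sq_nonneg _)
        (Finset.mem_univ l)
      have hz' : Real.pi * ∑ l, ‖z l‖ ^ 2 < r' := hz
      nlinarith [Real.pi_pos]
    refine ⟨fun l => h0 _ (hl l), ?_⟩
    have hterm : ∀ l, act (H z) l ≤ Real.pi * ‖z l‖ ^ 2 + Real.pi * (2 * S + 1) * ε := fun l => by
      have h1 : ‖H z l‖ ^ 2 ≤ (‖z l‖ + ε) ^ 2 := pow_le_pow_left₀ (norm_nonneg _) (hle _) 2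
      have h2 : 0 ≤ ε * (2 * S + 1 - (2 * ‖z l‖ + ε)) := mul_nonneg hε.le (by linarith [hl l])
      simp only [act, Complex.normSq_eq_norm_sq]
      nlinarith [mul_le_mul_of_nonneg_left h1 Real.pi_pos.le, mul_nonneg Real.pi_pos.le h2]
    calc ∑ l, act (H z) l ≤ ∑ l, (Real.pi * ‖z l‖ ^ 2 + Real.pi * (2 * S + 1) * ε) :=
          Finset.sum_le_sum fun l _ => hterm l
      _ = Real.pi * ∑ l, ‖z l‖ ^ 2 + D * ε := by
          rw [Finset.sum_add_distrib, ← Finset.mul_sum, hD]
          simp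
          ring
      _ < b := by
          have hz' : Real.pi * ∑ l, ‖z l‖ ^ 2 < r' := hz
          linarith
  have hdomU : ∀ z ∈ U, H z ∈ toricDom A c := fun z hz =>
    ⟨(hmem z hz).1, hdom _ (hmem z hz).1 (hmem z hz).2⟩
  have hH : ContDiff ℝ ∞ H := contDiff_pi.2 fun l => hh.comp (contDiff_apply ℝ ℂ l)
  have hHd : ∀ z v l, fderiv ℝ H z v l = fderiv ℝ h (z l) (v l) := fun z v l => by
    have h1 : HasFDerivAt H _ z := hasFDerivAt_pi.2 fun l =>
      ((hh.differentiable (by simp) (z l)).hasFDerivAt).comp z (hasFDerivAt_apply l z)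
    rw [h1.fderiv]
    rfl
  refine ⟨toric A B c ∘ H, ⟨U, hU, fun z hz => lt_of_le_of_lt hz hr', ?_, ?_, ?_⟩, ?_⟩
  · exact (contDiffOn_toric A B c).comp hH.contDiffOn hdomU
  · intro z hz z' hz' e
    have := toric_injOn hBA c (hdomU z hz) (hdomU z' hz') e
    exact funext fun l => hinj (congr_fun this l)
  · intro z hz v v'
    have ht : DifferentiableAt ℝ (toric A B c) (H z) :=
      ((contDiffOn_toric A B c).contDiffAt
        ((isOpen_toricDom A c).mem_nhds (hdomU z hz))).differentiableAt (by simp)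
    rw [fderiv_comp z ht (hH.differentiable (by simp) z)]
    simp only [ContinuousLinearMap.comp_apply]
    rw [omega_fderiv_toric hBA c (hdomU z hz), omega_eq, omega_eq]
    exact Finset.sum_congr rfl fun l _ => by rw [hHd, hHd, hsym]
  · rintro y ⟨z, hz, rfl⟩
    have hzU : z ∈ U := lt_of_le_of_lt hz hr'
    exact ⟨H z, (hmem z hzU).1, (hmem z hzU).2,
      fun i => pi_normSq_toric A B c ((hdomU z hzU).2 i).le⟩

/-- The matrix of the corner at a vertex. -/
def cornerA (i₀ : Fin n) : Fin n → Fin n → ℤ :=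
  fun i l => if i = i₀ then -1 else if i = l then 1 else 0

lemma cornerA_inv (i₀ k l : Fin n) :
    ∑ i, cornerA i₀ k i * cornerA i₀ i l = if k = l then 1 else 0 := by
  by_cases hk : k = i₀
  · subst hk
    simp only [cornerA, if_true, neg_one_mul, Finset.sum_neg_distrib]
    by_cases hl : k = l
    · subst hl
      rw [Finset.sum_eq_single k] <;> simp +contextual
    · rw [if_neg hl, neg_eq_zero,
        Finset.sum_eq_add_of_mem k l (Finset.mem_univ _) (Finset.mem_univ _) hl]
      · simp [Ne.symm hl]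
      · intro i _ hi
        simp [hi.1, hi.2]
  · simp only [cornerA, if_neg hk]
    rw [Finset.sum_eq_single k]
    · simp [hk]
    · intro i _ hi
      simp [Ne.symm hi]
    · simp

lemma newAct_corner (i₀ : Fin n) (R : ℝ) (w : Fin n → ℂ) (i : Fin n) :
    newAct (cornerA i₀) (fun i => if i = i₀ then R else 0) w i =
      if i = i₀ then R - ∑ l, act w l else act w i := by
  by_cases hi : i = i₀
  · subst hi
    simp [newAct, cornerA]
    ring
  · simp [newAct, cornerA, hi, ite_mul]

lemma mem_interior_ball {R : ℝ} {y : Fin n → ℂ}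
    (h : ∑ i, Real.pi * Complex.normSq (y i) < R) : y ∈ interior (ball n R) := by
  have h2 : Real.pi * ∑ i, ‖y i‖ ^ 2 < R := by
    simpa [Finset.mul_sum, Complex.normSq_eq_norm_sq] using h
  have hsub : {x : Fin n → ℂ | Real.pi * ∑ i, ‖x i‖ ^ 2 < R} ⊆ ball n R := fun x hx =>
    show Real.pi * ∑ i, ‖x i‖ ^ 2 ≤ R from le_of_lt (show Real.pi * ∑ i, ‖x i‖ ^ 2 < R from hx)
  exact interior_maximal hsub (isOpen_lt (by fun_prop) continuous_const) h2

/-- The two conditions suffice for at most `2ⁿ` balls. -/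
theorem packs_of_conditions (hn : 1 ≤ n) {k : ℕ} (hk : k ≤ 2 ^ n) {R : ℝ} {r : Fin k → ℝ}
    (hR : 0 < R) (hr : ∀ i, 0 < r i) (hvol : ∑ i, r i ^ n < R ^ n)
    (hpair : ∀ i j, i < j → r i + r j < R) : Packs n r R := by
  classical
  have hlt : ∀ i, r i < R := fun i => lt_of_pow_lt_pow_left₀ n hR.le
    (lt_of_le_of_lt (Finset.single_le_sum (f := fun j => r j ^ n)
      (fun j _ => (pow_pos (hr j) n).le) (Finset.mem_univ i)) hvol)
  have hsum : ∀ i j, i ≠ j → r i + r j < R := fun i j hij => by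
    rcases lt_or_gt_of_ne hij with h | h
    · exact hpair i j h
    · rw [add_comm]
      exact hpair j i h
  obtain ⟨b, S, hb0, hbR, hS, hsmall, hbig⟩ : ∃ (b : ℝ) (S : Finset (Fin k)),
      0 < b ∧ 2 * b ≤ R ∧ (∀ i ∈ S, ∀ j ∈ S, i = j) ∧ (∀ i ∉ S, r i < b) ∧
        ∀ i ∈ S, r i < R - b := by
    by_cases hex : ∃ i₁, R / 2 ≤ r i₁
    · obtain ⟨i₁, h1⟩ := hex
      have : Nonempty (Fin k) := ⟨i₁⟩
      set m := Finset.univ.sup' Finset.univ_nonempty (fun j => if j = i₁ then 0 else r j) with hm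
      have hm0 : 0 ≤ m := by
        have := Finset.le_sup' (fun j => if j = i₁ then 0 else r j) (Finset.mem_univ i₁)
        simpa using this
      have hmlt : m < R - r i₁ := by
        rw [hm, Finset.sup'_lt_iff]
        intro j _
        split_ifs with hj
        · linarith [hlt i₁]
        · linarith [hsum j i₁ hj]
      refine ⟨(m + (R - r i₁)) / 2, {i₁}, by linarith, by linarith,
        fun i hi j hj => (Finset.mem_singleton.1 hi).trans (Finset.mem_singleton.1 hj).symm,
        fun i hi => ?_, fun i hi => ?_⟩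
      · have h2 := Finset.le_sup' (fun j => if j = i₁ then 0 else r j) (Finset.mem_univ i)
        rw [if_neg (fun e => hi (Finset.mem_singleton.2 e)), ← hm] at h2
        linarith
      · rw [Finset.mem_singleton.1 hi]
        linarith
    · push Not at hex
      exact ⟨R / 2, ∅, by linarith, by linarith, by simp, fun i _ => hex i, by simp⟩
  obtain ⟨W, hWinj, hWS⟩ : ∃ W : Fin k → (Fin n → Bool), Function.Injective W ∧
      ∀ i ∈ S, W i = fun _ => true := by
    have hc : Fintype.card (Fin k) ≤ Fintype.card (Fin n → Bool) := by simpa using hk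
    obtain ⟨e⟩ := Function.Embedding.nonempty_of_card_le hc
    rcases S.eq_empty_or_nonempty with hS0 | ⟨i₁, hi₁⟩
    · exact ⟨e, e.injective, by simp [hS0]⟩
    · refine ⟨Equiv.swap (e i₁) (fun _ => true) ∘ e,
        (Equiv.injective _).comp e.injective, fun i hi => ?_⟩
      rw [hS i hi i₁ hi₁]
      simp
  set o : Fin n := ⟨0, hn⟩
  have hfalse : ∀ i ∉ S, S.Nonempty → ∃ l, W i l = false := fun i hi hne => by
    by_contra hc
    push Not at hc
    obtain ⟨i₁, hi₁⟩ := hne
    have : W i = W i₁ := by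
      rw [hWS i₁ hi₁]
      exact funext fun l => by simpa using hc l
    exact hi (hWinj this ▸ hi₁)
  have hpiece : ∀ i, ∃ f, IsSympEmbedding (r i) f ∧ ∀ y ∈ f '' ball n (r i),
      y ∈ interior (ball n R) ∧
      (i ∈ S → b < Real.pi * Complex.normSq (y o)) ∧
      (i ∉ S → ∃ w : Fin n → ℂ, (∀ l, w l ≠ 0) ∧ ∑ l, act w l < b ∧
        ∀ j, Real.pi * Complex.normSq (y j) =
          newAct (cellA (Tuple.sort (W i))) (cellC b (W i)) w j) := by
    intro i
    by_cases hi : i ∈ S
    · obtain ⟨f, hf, him⟩ := exists_piece (cornerA_inv o) (fun j => if j = o then R else 0)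
        (hr i) (hbig i hi) (fun w hw hsw j => by
          rw [newAct_corner]
          split_ifs
          · linarith
          · exact mul_pos Real.pi_pos (Complex.normSq_pos.2 (hw j)))
      refine ⟨f, hf, fun y hy => ?_⟩
      obtain ⟨w, hw, hsw, hy'⟩ := him y hy
      refine ⟨mem_interior_ball ?_, fun _ => ?_, fun h => absurd hi h⟩
      · simp only [hy', newAct_corner]
        rw [Finset.sum_ite, Finset.filter_eq', if_pos (Finset.mem_univ o), Finset.sum_singleton,
          Finset.filter_ne']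
        have h1 := Finset.sum_erase_add Finset.univ (act w) (Finset.mem_univ o)
        have h2 : 0 < act w o := mul_pos Real.pi_pos (Complex.normSq_pos.2 (hw o))
        linarith
      · rw [hy', newAct_corner, if_pos rfl]
        linarith
    · obtain ⟨f, hf, him⟩ := exists_piece (cellB_mul_cellA (Tuple.sort (W i))) (cellC b (W i))
        (hr i) (hsmall i hi) (fun w hw hsw j => cell_pos (W i) hw hsw j)
      refine ⟨f, hf, fun y hy => ?_⟩
      obtain ⟨w, hw, hsw, hy'⟩ := him y hy
      refine ⟨mem_interior_ball ?_, fun h => absurd h hi, fun _ => ⟨w, hw, hsw, hy'⟩⟩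
      simp only [hy']
      exact lt_of_lt_of_le (cell_sum_lt (W i) hw hsw) hbR
  choose f hf him using hpiece
  refine ⟨f, fun i => ⟨hf i, fun y hy => (him i y hy).1⟩, fun i j hij => ?_⟩
  show Disjoint (f i '' ball n (r i)) (f j '' ball n (r j))
  rw [Set.disjoint_left]
  intro y hyi hyj
  by_cases hi : i ∈ S
  · by_cases hj : j ∈ S
    · exact hij (hS i hi j hj)
    · obtain ⟨w, hw, hsw, hy'⟩ := (him j y hyj).2.2 hj
      obtain ⟨l, hl⟩ := hfalse j hj ⟨i, hi⟩
      have h1 := (him i y hyi).2.1 hi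
      rw [hy'] at h1
      linarith [cell_head_lt hl hn hw hsw]
  · obtain ⟨w, hw, hsw, hy'⟩ := (him i y hyi).2.2 hi
    by_cases hj : j ∈ S
    · obtain ⟨l, hl⟩ := hfalse i hi ⟨j, hj⟩
      have h1 := (him j y hyj).2.1 hj
      rw [hy'] at h1
      linarith [cell_head_lt hl hn hw hsw]
    · obtain ⟨w', hw', hsw', hy''⟩ := (him j y hyj).2.2 hj
      exact hij (hWinj (cell_separated hw hw' hsw hsw'
        (funext fun l => (hy' l).symm.trans (hy'' l))))

end Vale.Agent.P209
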