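import Vale.Agent.P209.Disc

/-!
# Integral affine toric maps
-/

open Complex
open scoped ContDiff

namespace Vale.Agent.P209

variable {n : ℕ}

lemma expI_sum (c : Fin n → ℤ) (θ : Fin n → ℝ) :
    exp (I * ((∑ k, (c k : ℝ) * θ k : ℝ) : ℂ)) = ∏ k, exp (I * (θ k : ℂ)) ^ c k := by
  rw [ofReal_sum, Finset.mul_sum, exp_sum]
  refine Finset.prod_congr rfl fun k _ => ?_
  rw [← exp_int_mul]
  push_cast
  ring_nf

lemma expI_arg {w : ℂ} (hw : w ≠ 0) : exp (I * (arg w : ℂ)) = w / (‖w‖ : ℂ) := by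
  rw [mul_comm, eq_div_iff (by exact_mod_cast norm_ne_zero_iff.2 hw), mul_comm]
  exact norm_mul_exp_arg_mul_I w

/-- The action coordinates. -/
noncomputable def act (w : Fin n → ℂ) (l : Fin n) : ℝ := Real.pi * normSq (w l)

/-- The image action coordinates of an affine toric map. -/
noncomputable def newAct (A : Fin n → Fin n → ℤ) (c : Fin n → ℝ) (w : Fin n → ℂ) (i : Fin n) :
    ℝ := (∑ l, (A i l : ℝ) * act w l) + c i

/-- The toric map with action part `ν ↦ A ν + c` and angle part `θ ↦ Bᵀ θ`. -/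
noncomputable def toric (A B : Fin n → Fin n → ℤ) (c : Fin n → ℝ) (w : Fin n → ℂ) : Fin n → ℂ :=
  fun i => (Real.sqrt (newAct A c w i / Real.pi) : ℂ) *
    exp (I * ((∑ k, (B k i : ℝ) * arg (w k) : ℝ) : ℂ))

/-- The domain of a toric map. -/
def toricDom (A : Fin n → Fin n → ℤ) (c : Fin n → ℝ) : Set (Fin n → ℂ) :=
  {w | (∀ l, w l ≠ 0) ∧ ∀ i, 0 < newAct A c w i}

lemma continuous_newAct (A : Fin n → Fin n → ℤ) (c : Fin n → ℝ) (i : Fin n) :
    Continuous fun w => newAct A c w i := by
  unfold newAct act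
  fun_prop

lemma isOpen_toricDom (A : Fin n → Fin n → ℤ) (c : Fin n → ℝ) : IsOpen (toricDom A c) := by
  simp only [toricDom, Set.ofPred_and, Set.ofPred_forall]
  exact (isOpen_iInter_of_finite fun l => isOpen_ne_fun (continuous_apply l) continuous_const).inter
    (isOpen_iInter_of_finite fun i => isOpen_lt continuous_const (continuous_newAct A c i))

lemma pi_normSq_toric (A B : Fin n → Fin n → ℤ) (c : Fin n → ℝ) {w : Fin n → ℂ} {i : Fin n}
    (h : 0 ≤ newAct A c w i) : Real.pi * normSq (toric A B c w i) = newAct A c w i := by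
  rw [toric, normSq_mul, normSq_ofReal, Real.mul_self_sqrt (div_nonneg h Real.pi_pos.le),
    normSq_eq_norm_sq, Complex.norm_exp]
  simp
  field_simp

lemma toric_injOn {A B : Fin n → Fin n → ℤ}
    (hBA : ∀ k l, ∑ i, B k i * A i l = if k = l then 1 else 0) (c : Fin n → ℝ) :
    Set.InjOn (toric A B c) (toricDom A c) := by
  intro w hw w' hw' h
  have hact : ∀ i, newAct A c w i = newAct A c w' i := fun i => by
    rw [← pi_normSq_toric A B c (hw.2 i).le, h, pi_normSq_toric A B c (hw'.2 i).le]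
  have inv : ∀ (x : Fin n → ℝ) (l : Fin n), ∑ i, (A i l : ℝ) * ∑ k, (B k i : ℝ) * x k = x l := by
    intro x l
    have ac : ∀ i k, (A i l : ℝ) * ((B k i : ℝ) * x k) = (B k i : ℝ) * (A i l : ℝ) * x k :=
      fun i k => by ring
    simp only [Finset.mul_sum, ac]
    rw [Finset.sum_comm, Finset.sum_eq_single l]
    · have h1 : ∑ i, (B l i : ℝ) * (A i l : ℝ) = 1 := by exact_mod_cast (by simpa using hBA l l)
      rw [← Finset.sum_mul, h1, one_mul]
    · intro k _ hk
      have h1 : ∑ i, (B k i : ℝ) * (A i l : ℝ) = 0 := by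
        exact_mod_cast (by simpa [hk] using hBA k l)
      rw [← Finset.sum_mul, h1, zero_mul]
    · simp
  have hn : ∀ l, ‖w l‖ = ‖w' l‖ := by
    intro l
    have hsum : ∀ i, ∑ k, (A i k : ℝ) * (act w k - act w' k) = 0 := fun i => by
      have := hact i
      simp only [newAct, add_left_inj] at this
      simp only [mul_sub, Finset.sum_sub_distrib, this, sub_self]
    have e : ∑ i, (B l i : ℝ) * ∑ k, (A i k : ℝ) * (act w k - act w' k) = act w l - act w' l := by
      simp only [Finset.mul_sum]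
      rw [Finset.sum_comm, Finset.sum_eq_single l]
      · have h1 : ∑ i, (B l i : ℝ) * (A i l : ℝ) = 1 := by exact_mod_cast (by simpa using hBA l l)
        simp only [← mul_assoc]
        rw [← Finset.sum_mul, h1, one_mul]
      · intro k _ hk
        have h1 : ∑ i, (B l i : ℝ) * (A i k : ℝ) = 0 := by
          exact_mod_cast (by simpa [Ne.symm hk] using hBA l k)
        simp only [← mul_assoc]
        rw [← Finset.sum_mul, h1, zero_mul]
      · simp
    simp only [hsum, mul_zero, Finset.sum_const_zero] at e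
    have e' : normSq (w l) = normSq (w' l) :=
      mul_left_cancel₀ Real.pi_ne_zero (show act w l = act w' l by linarith)
    rwa [normSq_eq_norm_sq, normSq_eq_norm_sq,
      sq_eq_sq₀ (norm_nonneg _) (norm_nonneg _)] at e'
  funext l
  have hph : ∀ i, exp (I * ((∑ k, (B k i : ℝ) * arg (w k) : ℝ) : ℂ)) =
      exp (I * ((∑ k, (B k i : ℝ) * arg (w' k) : ℝ) : ℂ)) := fun i => by
    have hi := congr_fun h i
    simp only [toric, ← hact i] at hi
    refine mul_left_cancel₀ ?_ hi
    rw [ofReal_ne_zero]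
    exact (Real.sqrt_pos.2 (div_pos (hw.2 i) Real.pi_pos)).ne'
  have e : exp (I * (arg (w l) : ℂ)) = exp (I * (arg (w' l) : ℂ)) := by
    rw [← inv (fun k => arg (w k)) l, ← inv (fun k => arg (w' k)) l,
      expI_sum (fun i => A i l), expI_sum (fun i => A i l)]
    simp only [hph]
  rw [← norm_mul_exp_arg_mul_I (w l), ← norm_mul_exp_arg_mul_I (w' l), hn l,
    mul_comm (arg (w l) : ℂ), e, mul_comm I]

/-- A branch of the angle near `w₀`. -/
noncomputable def angle (w₀ z : ℂ) : ℝ := (log (z / w₀)).im + arg w₀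

lemma toric_eventuallyEq (A B : Fin n → Fin n → ℤ) (c : Fin n → ℝ) {w₀ : Fin n → ℂ}
    (h0 : ∀ l, w₀ l ≠ 0) :
    toric A B c =ᶠ[nhds w₀] fun w i => (Real.sqrt (newAct A c w i / Real.pi) : ℂ) *
      exp (I * ((∑ k, (B k i : ℝ) * angle (w₀ k) (w k) : ℝ) : ℂ)) := by
  have hev : ∀ᶠ w in nhds w₀, ∀ l, w l ≠ 0 :=
    Filter.eventually_all.2 fun l => (continuous_apply l).continuousAt.eventually_ne (h0 l)
  filter_upwards [hev] with w hw
  funext i
  simp only [toric, expI_sum (fun k => B k i)]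
  congr 1
  refine Finset.prod_congr rfl fun k _ => ?_
  congr 1
  have hq : w k / w₀ k ≠ 0 := div_ne_zero (hw k) (h0 k)
  rw [angle, log_im, ofReal_add, mul_add, exp_add, expI_arg hq, expI_arg (hw k), expI_arg (h0 k),
    norm_div, ofReal_div]
  have := h0 k
  have h2 : (‖w₀ k‖ : ℂ) ≠ 0 := by exact_mod_cast norm_ne_zero_iff.2 (h0 k)
  field_simp

lemma angle_div_self {w : ℂ} (hw : w ≠ 0) : w / w ∈ slitPlane := by simp [div_self hw, slitPlane]

lemma contDiffOn_toric (A B : Fin n → Fin n → ℤ) (c : Fin n → ℝ) :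
    ContDiffOn ℝ ∞ (toric A B c) (toricDom A c) := by
  intro w hw
  refine (ContDiffAt.congr_of_eventuallyEq ?_ (toric_eventuallyEq A B c hw.1)).contDiffWithinAt
  refine contDiffAt_pi.2 fun i => ?_
  have hs : ContDiffAt ℝ ∞ (fun v : Fin n → ℂ => newAct A c v i / Real.pi) w := by
    simp only [newAct, act, normSq_eq_norm_sq]
    exact ((ContDiff.sum fun l _ => contDiff_const.mul (contDiff_const.mul
      ((contDiff_apply ℝ ℂ l).norm_sq ℝ))).add contDiff_const).contDiffAt.div_const _
  have h1 : ContDiffAt ℝ ∞ (fun v : Fin n → ℂ =>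
      ((Real.sqrt (newAct A c v i / Real.pi) : ℝ) : ℂ)) w :=
    ofRealCLM.contDiff.contDiffAt.comp w (hs.sqrt (div_pos (hw.2 i) Real.pi_pos).ne')
  have h2 : ∀ k, ContDiffAt ℝ ∞ (fun v : Fin n → ℂ => angle (w k) (v k)) w := fun k => by
    have hl : ContDiffAt ℂ ∞ log (w k / w k) := contDiffAt_log (angle_div_self (hw.1 k))
    have : ContDiffAt ℝ ∞ (fun v : Fin n → ℂ => log (v k / w k)) w :=
      (hl.restrict_scalars ℝ).comp w ((contDiff_apply ℝ ℂ k).contDiffAt.div_const _)
    exact (imCLM.contDiff.contDiffAt.comp w this).add contDiffAt_const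
  have h4 : ContDiffAt ℝ ∞ (fun v : Fin n → ℂ => ∑ k, (B k i : ℝ) * angle (w k) (v k)) w :=
    ContDiffAt.sum fun k _ => contDiffAt_const.mul (h2 k)
  have h3 : ContDiffAt ℝ ∞ (fun v : Fin n → ℂ =>
      ((∑ k, (B k i : ℝ) * angle (w k) (v k) : ℝ) : ℂ)) w :=
    ofRealCLM.contDiff.contDiffAt.comp w h4
  exact h1.mul (contDiffAt_const.mul h3).cexp

lemma omega_fderiv_toric {A B : Fin n → Fin n → ℤ}
    (hBA : ∀ k l, ∑ i, B k i * A i l = if k = l then 1 else 0) (c : Fin n → ℝ) {w : Fin n → ℂ}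
    (hw : w ∈ toricDom A c) (a b : Fin n → ℂ) :
    omega (fderiv ℝ (toric A B c) w a) (fderiv ℝ (toric A B c) w b) = omega a b := by
  set ρ : Fin n → ℝ := fun i => Real.sqrt (newAct A c w i / Real.pi) with hρdef
  set M : Fin n → (Fin n → ℂ) → ℝ := fun l v => (w l).re * (v l).re + (w l).im * (v l).im
  set T : Fin n → (Fin n → ℂ) → ℝ := fun k v => (v k / w k).im
  set P : Fin n → (Fin n → ℂ) → ℝ := fun i v => ∑ l, (A i l : ℝ) * M l v
  set Q : Fin n → (Fin n → ℂ) → ℝ := fun i v => ∑ k, (B k i : ℝ) * T k v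
  set E : Fin n → ℂ := fun i => exp (I * ((∑ k, (B k i : ℝ) * angle (w k) (w k) : ℝ) : ℂ))
  have hρ : ∀ i, 0 < ρ i := fun i => Real.sqrt_pos.2 (div_pos (hw.2 i) Real.pi_pos)
  have hd : ∀ (v : Fin n → ℂ) i, fderiv ℝ (toric A B c) w v i =
      E i * (((P i v / ρ i : ℝ) : ℂ) + I * ((ρ i * Q i v : ℝ) : ℂ)) := by
    intro v i
    let pr : Fin n → (Fin n → ℂ) →L[ℝ] ℂ := fun l => ContinuousLinearMap.proj l
    let Mc : Fin n → (Fin n → ℂ) →L[ℝ] ℝ := fun l =>
      (w l).re • reCLM.comp (pr l) + (w l).im • imCLM.comp (pr l)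
    let Tc : Fin n → (Fin n → ℂ) →L[ℝ] ℝ := fun k => imCLM.comp ((w k)⁻¹ • pr k)
    let Pc : Fin n → (Fin n → ℂ) →L[ℝ] ℝ := fun i => ∑ l, (A i l : ℝ) • Mc l
    let Qc : Fin n → (Fin n → ℂ) →L[ℝ] ℝ := fun i => ∑ k, (B k i : ℝ) • Tc k
    have happ : ∀ l, HasFDerivAt (fun x : Fin n → ℂ => x l) (pr l) w :=
      fun l => hasFDerivAt_apply l w
    have hact : ∀ l, HasFDerivAt (fun x : Fin n → ℂ => act x l) ((2 * Real.pi) • Mc l) w := fun l =>
      (((((reCLM.hasFDerivAt.comp w (happ l)).mul (reCLM.hasFDerivAt.comp w (happ l))).add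
        ((imCLM.hasFDerivAt.comp w (happ l)).mul (imCLM.hasFDerivAt.comp w (happ l)))).const_mul
          Real.pi).congr_of_eventuallyEq
        (Filter.Eventually.of_forall fun x => by simp [act, normSq_apply])).congr_fderiv
        (by ext u; simp [Mc, pr]; ring)
    have hlog : ∀ k, w k * (w k)⁻¹ ∈ slitPlane := fun k => by
      simpa [div_eq_mul_inv] using angle_div_self (hw.1 k)
    have hang : ∀ k, HasFDerivAt (fun x : Fin n → ℂ => angle (w k) (x k)) (Tc k) w := fun k =>
      (((imCLM.hasFDerivAt.comp w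
        ((HasFDerivAt.restrictScalars ℝ (hasDerivAt_log (hlog k)).hasFDerivAt).comp w
          ((happ k).mul_const (w k)⁻¹))).add_const (arg (w k))).congr_of_eventuallyEq
        (Filter.Eventually.of_forall fun x => by
          simp [angle, div_eq_mul_inv])).congr_fderiv
        (by ext u; simp [Tc, pr, mul_inv_cancel₀ (hw.1 k)])
    have hN : HasFDerivAt (fun x : Fin n → ℂ => newAct A c x i / Real.pi) ((2 : ℝ) • Pc i) w :=
      ((((HasFDerivAt.fun_sum fun l (_ : l ∈ Finset.univ) =>
        (hact l).const_mul (A i l : ℝ)).add_const (c i)).mul_const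
          Real.pi⁻¹).congr_of_eventuallyEq
        (Filter.Eventually.of_forall fun x => by simp [newAct, div_eq_mul_inv])).congr_fderiv
        (by
          ext u
          simp only [Pc, ContinuousLinearMap.coe_smul', ContinuousLinearMap.sum_apply,
            Pi.smul_apply, smul_eq_mul, Finset.mul_sum]
          exact Finset.sum_congr rfl fun l _ => by field_simp)
    have hS : HasFDerivAt (fun x : Fin n → ℂ => Real.sqrt (newAct A c x i / Real.pi))
        ((ρ i)⁻¹ • Pc i) w :=
      (hN.sqrt (div_pos (hw.2 i) Real.pi_pos).ne').congr_fderiv (by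
        ext u
        have := (hρ i).ne'
        simp only [ρ] at this ⊢
        simp
        field_simp)
    have hphi : HasFDerivAt (fun x : Fin n → ℂ => ∑ k, (B k i : ℝ) * angle (w k) (x k)) (Qc i) w :=
      HasFDerivAt.fun_sum fun k (_ : k ∈ Finset.univ) => (hang k).const_mul (B k i : ℝ)
    have hF := (ofRealCLM.hasFDerivAt.comp w hS).mul
      ((ofRealCLM.hasFDerivAt.comp w hphi).const_mul I).cexp
    have hev := toric_eventuallyEq A B c hw.1
    have hT : HasFDerivAt (fun x => toric A B c x i) _ w :=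
      hF.congr_of_eventuallyEq (hev.mono fun x hx => by simp [hx])
    have hdiff : DifferentiableAt ℝ (toric A B c) w :=
      ((contDiffOn_toric A B c).contDiffAt ((isOpen_toricDom A c).mem_nhds hw)).differentiableAt
        (by simp)
    have hcomp := (hasFDerivAt_pi'.1 hdiff.hasFDerivAt i).unique hT
    have hval : fderiv ℝ (toric A B c) w v i = _ := DFunLike.congr_fun hcomp v
    rw [hval]
    have eP : Pc i v = P i v := by simp [Pc, P, Mc, M, pr, mul_add]
    have eQ : Qc i v = Q i v := by simp [Qc, Q, Tc, T, pr, div_eq_mul_inv, mul_comm]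
    simp [eP, eQ, E, ρ]
    ring
  have he : ∀ i, (E i).re * (E i).re + (E i).im * (E i).im = 1 := fun i => by
    rw [← normSq_apply, normSq_eq_norm_sq, Complex.norm_exp]
    simp
  have h1 : omega (fderiv ℝ (toric A B c) w a) (fderiv ℝ (toric A B c) w b) =
      ∑ i, (P i a * Q i b - P i b * Q i a) := by
    refine Finset.sum_congr rfl fun i _ => ?_
    rw [hd, hd]
    have hne := (hρ i).ne'
    calc _ = ((E i).re * (E i).re + (E i).im * (E i).im) *
          (P i a / ρ i * (ρ i * Q i b) - ρ i * Q i a * (P i b / ρ i)) := by simp; ring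
      _ = _ := by rw [he, one_mul]; field_simp
  have h2 : ∑ i, (P i a * Q i b - P i b * Q i a) = ∑ l, (M l a * T l b - M l b * T l a) := by
    simp only [P, Q, Finset.sum_mul_sum, ← Finset.sum_sub_distrib]
    have : ∀ i l k, (A i l : ℝ) * M l a * ((B k i : ℝ) * T k b) -
        (A i l : ℝ) * M l b * ((B k i : ℝ) * T k a) =
        (B k i : ℝ) * (A i l : ℝ) * (M l a * T k b - M l b * T k a) := fun i l k => by ring
    simp only [this]
    rw [Finset.sum_comm]
    refine Finset.sum_congr rfl fun l _ => ?_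
    rw [Finset.sum_comm, Finset.sum_eq_single l]
    · have h1 : ∑ i, (B l i : ℝ) * (A i l : ℝ) = 1 := by exact_mod_cast (by simpa using hBA l l)
      rw [← Finset.sum_mul, h1, one_mul]
    · intro k _ hk
      have h1 : ∑ i, (B k i : ℝ) * (A i l : ℝ) = 0 := by
        exact_mod_cast (by simpa [hk] using hBA k l)
      rw [← Finset.sum_mul, h1, zero_mul]
    · simp
  rw [h1, h2]
  refine Finset.sum_congr rfl fun l _ => ?_
  have hne : normSq (w l) ≠ 0 := by simpa [normSq_eq_zero] using hw.1 l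
  simp only [M, T, div_im]
  rw [normSq_apply] at hne ⊢
  trans ((w l).re * (w l).re + (w l).im * (w l).im) /
      ((w l).re * (w l).re + (w l).im * (w l).im) *
      ((a l).re * (b l).im - (a l).im * (b l).re)
  · ring
  · rw [div_self hne, one_mul]

end Vale.Agent.P209
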